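import Vale.Agent.P235.ST.H317.Defs

/-! P235, (ST) O(1), row r10 (helper611): costs of walks. -/

namespace Vale.Agent.P235.STO.H611

open SimpleGraph

variable {V : Type} (W : LWorld V)

theorem cost_nonneg {G : SimpleGraph V} (w : V → ℝ) {x y : V} (p : G.Walk x y) :
    0 ≤ cost w p := by
  induction p with
  | nil => exact le_rfl
  | cons h p ih => exact add_nonneg (abs_nonneg _) ih

theorem cost_append {G : SimpleGraph V} (w : V → ℝ) {x y z : V} (p : G.Walk x y)
    (q : G.Walk y z) : cost w (p.append q) = cost w p + cost w q := by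
  induction p with
  | nil => simp [cost]
  | cons h p ih =>
    rw [Walk.cons_append]
    show _ + cost w (p.append q) = _ + cost w p + cost w q
    rw [ih q]
    ring

theorem cost_concat {G : SimpleGraph V} (w : V → ℝ) {x y z : V} (p : G.Walk x y)
    (h : G.Adj y z) : cost w (p.append (Walk.cons h Walk.nil)) = cost w p + |w y - w z| := by
  rw [cost_append]
  show _ + (_ + 0) = _
  rw [add_zero]

theorem cost_reverse {G : SimpleGraph V} (w : V → ℝ) {x y : V} (p : G.Walk x y) :
    cost w p.reverse = cost w p := by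
  induction p with
  | nil => rfl
  | cons h p ih =>
    rw [Walk.reverse_cons, cost_concat, ih]
    show _ = _ + cost w p
    rw [abs_sub_comm]
    ring

theorem abs_le_cost {G : SimpleGraph V} (w : V → ℝ) {x y : V} (p : G.Walk x y) :
    |w y - w x| ≤ cost w p := by
  induction p with
  | nil => simp [cost]
  | @cons a b c h p ih =>
    show _ ≤ |w a - w b| + cost w p
    have h1 : w c - w a = (w c - w b) + -(w a - w b) := by ring
    calc |w c - w a| = |(w c - w b) + -(w a - w b)| := by rw [h1]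
      _ ≤ |w c - w b| + |-(w a - w b)| := abs_add_le _ _
      _ = |w c - w b| + |w a - w b| := by rw [abs_neg]
      _ ≤ |w a - w b| + cost w p := by linarith

theorem cost_dropUntil {G : SimpleGraph V} [DecidableEq V] (w : V → ℝ) {x y z : V}
    (p : G.Walk x y) (h : z ∈ p.support) : cost w (p.dropUntil z h) ≤ cost w p := by
  have h1 := cost_append w (p.takeUntil z h) (p.dropUntil z h)
  rw [Walk.take_spec] at h1
  rw [h1]
  have := cost_nonneg w (p.takeUntil z h)
  linarith

theorem cost_bypass {G : SimpleGraph V} [DecidableEq V] (w : V → ℝ) {x y : V}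
    (p : G.Walk x y) : cost w p.bypass ≤ cost w p := by
  induction p with
  | nil => exact le_rfl
  | @cons a b c h p ih =>
    show cost w (if hs : a ∈ p.bypass.support then p.bypass.dropUntil a hs
      else Walk.cons h p.bypass) ≤ |w a - w b| + cost w p
    split_ifs with hs
    · have := cost_dropUntil w p.bypass hs
      have := abs_nonneg (w a - w b)
      linarith
    · show |w a - w b| + cost w p.bypass ≤ _
      linarith

theorem d_nonneg (x y : V) : 0 ≤ W.d x y := Nat.cast_nonneg _

theorem d_le_length {x y : V} (g : W.G.Walk x y) : W.d x y ≤ g.length := by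
  exact Nat.cast_le.2 (SimpleGraph.dist_le g)

theorem kap_pos : 0 < kap := by unfold kap; positivity

theorem e1_pos : 0 < e1 := by unfold e1; positivity

theorem rho_le {ρ : V → ℝ} (hρ : W.Scale ρ) (x y : V) : ρ y ≤ ρ x + W.d x y / kap := by
  have := (abs_le.1 (hρ.lip x y)).1
  linarith

theorem diff_le {ρ' w : V → ℝ} (hw : W.Inv ρ' w) (a b : V) :
    |(W.u b : ℝ) - W.u a| ≤ |w b - w a| + 2 * e1 * (ρ' a + ρ' b) := by
  have h1 := hw.close a
  have h2 := hw.close b
  have h3 : (W.u b : ℝ) - W.u a = (w b - w a) + ((w a - W.u a) + -(w b - W.u b)) := by ring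
  calc |(W.u b : ℝ) - W.u a| = |(w b - w a) + ((w a - W.u a) + -(w b - W.u b))| := by rw [← h3]
    _ ≤ |w b - w a| + |(w a - W.u a) + -(w b - W.u b)| := abs_add_le _ _
    _ ≤ |w b - w a| + (|w a - W.u a| + |-(w b - W.u b)|) := by gcongr; exact abs_add_le _ _
    _ = |w b - w a| + (|w a - W.u a| + |w b - W.u b|) := by rw [abs_neg]
    _ ≤ |w b - w a| + 2 * e1 * (ρ' a + ρ' b) := by linarith

theorem vert {ρ' w : V → ℝ} (hρ : W.Scale ρ') (hw : W.Inv ρ' w) {a b : V}
    (g : W.G.Walk a b) :
    (31 / 32) * |(W.u b : ℝ) - W.u a| - 8 * e1 * ρ' a ≤ cost w g := by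
  have h1 := diff_le W hw a b
  have h2 := abs_le_cost w g
  have h3 := rho_le W hρ a b
  have h4 := hρ.nonneg a
  have hd := d_nonneg W a b
  have h5 := cost_nonneg w g
  have h6 := abs_nonneg ((W.u b : ℝ) - W.u a)
  have he := e1_pos
  have h7 : 2 * e1 * (ρ' a + ρ' b) ≤ 4 * e1 * ρ' a + 2 * e1 * (W.d a b / kap) := by
    have : 2 * e1 * (ρ' a + ρ' b) ≤ 2 * e1 * (ρ' a + (ρ' a + W.d a b / kap)) := by gcongr
    linarith
  have hk : 2 * e1 * (W.d a b / kap) = W.d a b / 2 ^ 97 := by
    unfold e1 kap; ring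
  rw [hk] at h7
  rcases le_or_gt (C1 * d1 * ρ' a) (W.d a b) with hc | hc
  · have h8 := hw.lb a b g hc
    have h9 : W.d a b ≤ 2 ^ 10 * cost w g := by
      unfold c2 at h8
      linarith
    have h10 : W.d a b / 2 ^ 97 ≤ cost w g / 2 ^ 87 := by
      rw [div_le_div_iff₀ (by positivity) (by positivity)]
      nlinarith
    have h11 : 0 ≤ e1 * ρ' a := by positivity
    have h12 : |(W.u b : ℝ) - W.u a| ≤ (1 + 1 / 2 ^ 87) * cost w g + 4 * (e1 * ρ' a) := by
      linarith
    have h13 : (1 + 1 / 2 ^ 87 : ℝ) * cost w g ≤ (32 / 31) * cost w g := by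
      apply mul_le_mul_of_nonneg_right _ h5
      norm_num
    linarith
  · have h9 : W.d a b / 2 ^ 97 ≤ 4 * (e1 * ρ' a) * (1 / 2) := by
      have : W.d a b / 2 ^ 97 ≤ (C1 * d1 * ρ' a) / 2 ^ 97 := by gcongr
      refine this.trans ?_
      have h10 : C1 * d1 * ρ' a / 2 ^ 97 = ρ' a * (1 / 2 ^ 186) := by
        unfold C1 d1; ring
      have h11 : 4 * (e1 * ρ' a) * (1 / 2) = ρ' a * (1 / 2 ^ 119) := by
        unfold e1; ring
      rw [h10, h11]
      apply mul_le_mul_of_nonneg_left _ h4
      norm_num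
    have h11 : 0 ≤ e1 * ρ' a := by positivity
    linarith

theorem hop_cost {ρ' w : V → ℝ} (hρ : W.Scale ρ') (hw : W.Inv ρ' w) {a b : V}
    (g : W.G.Walk a b) (hg : g.IsPath) (hin : ∀ z ∈ g.support, z ≠ a → z ≠ b → z ∉ W.N)
    (ha : ρ' a ≤ 4 / kap) : (4 / 5) * (g.length : ℝ) ≤ cost w g := by
  classical
  obtain ⟨m, hm, hml⟩ := W.hop a b g hg hin
  rcases Nat.eq_zero_or_pos g.length with h0 | h0
  · rw [h0]
    have := cost_nonneg w g
    simpa using this
  have hn : (1 : ℝ) ≤ (g.length : ℝ) := by exact_mod_cast h0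
  have hml' : |(W.u m : ℝ) - W.u a| + |(W.u b : ℝ) - W.u m| = (g.length : ℝ) := by
    exact_mod_cast hml
  have hsp := cost_append w (g.takeUntil m hm) (g.dropUntil m hm)
  rw [Walk.take_spec] at hsp
  have c1 := abs_le_cost w (g.takeUntil m hm)
  have c3 := abs_le_cost w (g.dropUntil m hm)
  have l1 : W.d a m ≤ g.length := by
    refine (d_le_length W (g.takeUntil m hm)).trans ?_
    exact_mod_cast g.length_takeUntil_le_length hm
  have l2 : W.d a b ≤ g.length := d_le_length W g
  have d1' := diff_le W hw a m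
  have d2' := diff_le W hw m b
  have r1 := rho_le W hρ a m
  have r2 := rho_le W hρ a b
  have he := e1_pos
  have hk := kap_pos
  have e1' : ρ' m ≤ 4 / kap + g.length / kap := by
    have : W.d a m / kap ≤ g.length / kap := by gcongr
    linarith
  have e2' : ρ' b ≤ 4 / kap + g.length / kap := by
    have : W.d a b / kap ≤ g.length / kap := by gcongr
    linarith
  have e3 : 4 / kap ≤ 4 * (g.length / kap) := by
    have : 1 / kap ≤ (g.length : ℝ) / kap := by gcongr
    have h4 : 4 / kap = 4 * (1 / kap) := by ring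
    linarith
  have e4 : 2 * e1 * (ρ' a + ρ' m) + 2 * e1 * (ρ' m + ρ' b) ≤ 2 * e1 * (19 * (g.length / kap)) := by
    have : 2 * e1 * (ρ' a + ρ' m) + 2 * e1 * (ρ' m + ρ' b) =
        2 * e1 * (ρ' a + 2 * ρ' m + ρ' b) := by ring
    rw [this]
    gcongr
    linarith
  have e5 : 2 * e1 * (19 * ((g.length : ℝ) / kap)) = (g.length : ℝ) * (19 / 2 ^ 97) := by
    unfold e1 kap; ring
  rw [e5] at e4
  have e6 : (g.length : ℝ) * (19 / 2 ^ 97) ≤ g.length * (1 / 5) := by
    apply mul_le_mul_of_nonneg_left _ (by linarith)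
    norm_num
  linarith

end Vale.Agent.P235.STO.H611
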